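import Vale.Agent.P224.PO.IdX
import Vale.Agent.P224.PO.R5b.Rows
import Vale.Agent.P224.PO.R5b.El
import Vale.Agent.P224.PO.R5b.DF0
import Vale.Agent.P224.PO.R5b.DF1

/-!
The identity of the certificate in dimension 5 and the positivity of its left side.
-/

namespace Vale.Agent.P224.PO.R5b

open Vale.Agent.P224.UE Vale.Agent.P224.POS Vale.Agent.P224.PO
open scoped RealInnerProductSpace

noncomputable section

/-- the blocks with the multiplier number 0 -/
def B1 : List BlkX := [⟨els0, 144115188075855872, N0⟩,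
  ⟨els1, 18014398509481984, N1⟩]

/-- the blocks with the multiplier number 1 -/
def Br : List BlkX := [⟨els2, 72057594037927936, N2⟩,
  ⟨els3, 72057594037927936, N3⟩]

/-- the blocks with the multiplier number 2 -/
def S1 : List BlkX := [⟨els4, 16777216, N4⟩,
  ⟨els5, 4294967296, N5⟩]

/-- the blocks with the multiplier number 3 -/
def Sr : List BlkX := [⟨els6, 33554432, N6⟩,
  ⟨els7, 137438953472, N7⟩]

/-- the integers replacing the first four variables (not powers of two: the kernel hashes a numeral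
by its last 64 bits) -/
def Ms : List Nat := [
  Nat.add (Nat.pow 2 83) 1090297408444377839,
  Nat.add (Nat.pow 2 1311) 672893673074899541,
  Nat.add (Nat.pow 2 9327) 494586791774247929,
  Nat.add (Nat.pow 2 65439) 946030352018653745]

set_option maxRecDepth 100000 in
/-- **The identity**, checked by the kernel. -/
theorem idM : chkX Ms (PE.sb sbH P) 8 tabH (mulX B1 Br S1 Sr) = true := by
  decide +kernel

lemma hB1 : GoodX B1 :=
  (goodX_cons psd0 (goodX_cons psd1 goodX_nil))

lemma hBr : GoodX Br :=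
  (goodX_cons psd2 (goodX_cons psd3 goodX_nil))

lemma hS1 : GoodX S1 :=
  (goodX_cons psd4 (goodX_cons psd5 goodX_nil))

lemma hSr : GoodX Sr :=
  (goodX_cons psd6 (goodX_cons psd7 goodX_nil))

/-- **Positivity** of the left side on pair data with a vector of length at most `5 / 6`. -/
theorem pos {E : Type*} [NormedAddCommGroup E] [InnerProductSpace ℝ E] {e x N y w : E}
    (he : ‖e‖ ^ 2 ≤ 25 / 36) (hx : ‖x‖ = 1) (hN : ‖N‖ = 1) (hy : ‖y‖ = 1) (hw : ‖w‖ = 1)
    (hxN : ⟪x, N⟫ = 0) (hyw : ⟪y, w⟫ = 0) (hs : ⟪x, y⟫ < 1) :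
    0 ≤ PE.ev (vh (dv x N y w e)) P :=
  nonneg_of_chkX 8 (by norm_num) idM rfl hB1 hBr hS1 hSr he hx hN hy hw hxN hyw hs

/-- **The pointwise inequality of the certificate.** -/
theorem hpos {E : Type*} [NormedAddCommGroup E] [InnerProductSpace ℝ E] (e x N y w : E)
    (he : ‖e‖ ^ 2 ≤ 25 / 36) (hx : ‖x‖ = 1) (hN : ‖N‖ = 1) (hy : ‖y‖ = 1) (hw : ‖w‖ = 1)
    (hxN : ⟪x, N⟫ = 0) (hyw : ⟪y, w⟫ = 0) (hs : ⟪x, y⟫ < 1) :
    0 ≤ Vale.Agent.P224.UE.W9 (19649528609152 / 14293651161088) (8503198271568 / 14293651161088) (-51256215097776 / 14293651161088) (68704227728240 / 14293651161088) (-43734440612512 / 14293651161088) (-17404532995616 / 14293651161088) (21211473293296 / 14293651161088) (3036493398016 / 14293651161088) (0 / 14293651161088)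
        (dv x N y w e)
      + hsum 5 (rlH 14293651161088 rows) (dv x N y w e) + XF (-40097478220800 / 14293651161088) (2864105587200 / 14293651161088) (-1169509781440 / 14293651161088) (dv x N y w e)
      + (-27000813469760 / 14293651161088) * (dv x N y w e) 0 ^ 3 :=
  pos_of hs (pos he hx hN hy hw hxN hyw hs)

end

end Vale.Agent.P224.PO.R5b
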